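import Vale.Agent.P287.Theta.Main
import Vale.Agent.P287.H100.Fourfold

/-!
Rationality of smooth cubic fourfolds containing a plane `P`: by means of the quadratic form over
`K = ℂ(s₀, s₁)` of the quadric surface fibration given by the projection from `P`, and by means of a
plane curve of even degree which splits in the double plane branched along the discriminant sextic.
-/

namespace Vale.Agent.Results.P287.EvenTheta

open MvPolynomial Matrix Vale.Agent.P287

/-- The weights `0, 0, 0, 1` of the four coordinates `y₀, y₁, y₂, 1`. -/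
def weight : Fin 4 → ℕ := ![0, 0, 0, 1]

/-- `M` is the matrix of the quadric surface fibration of a cubic fourfold containing the plane
`x₀ = x₁ = x₂ = 0`: it is symmetric and `M i j` is a form in `x₀, x₁, x₂` of degree
`1 + weight i + weight j`. -/
structure IsFibrationMatrix (M : Matrix (Fin 4) (Fin 4) (MvPolynomial (Fin 3) ℂ)) : Prop where
  symm : M.IsSymm
  homogeneous : ∀ i j, (M i j).IsHomogeneous (1 + weight i + weight j)

/-- The cubic form `∑ M i j (x₀, x₁, x₂) v_i v_j` with `v = (x₃, x₄, x₅, 1)`. -/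
noncomputable def cubicForm (M : Matrix (Fin 4) (Fin 4) (MvPolynomial (Fin 3) ℂ)) :
    MvPolynomial (Fin 6) ℂ :=
  ![X 3, X 4, X 5, 1] ⬝ᵥ ((M.map (aeval ![X 0, X 1, X 2])) *ᵥ ![X 3, X 4, X 5, 1])

/-- The form `F` is smooth: its partial derivatives have no common zero but the origin. -/
def IsSmoothForm {n : ℕ} (F : MvPolynomial (Fin n) ℂ) : Prop :=
  ∀ z : Fin n → ℂ, (∀ i, eval z (pderiv i F) = 0) → z = 0

/-- The hypersurface `F = 0` is rational: its function field, in the chart `x₀ = 1`, is the field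
of rational functions in four variables over `ℂ`. -/
def IsRationalForm (F : MvPolynomial (Fin 6) ℂ) : Prop :=
  Nonempty (FractionRing (MvPolynomial (Fin 5) ℂ ⧸
      Ideal.span {aeval (Fin.cons 1 X : Fin 6 → MvPolynomial (Fin 5) ℂ) F}) ≃ₐ[ℂ]
    FractionRing (MvPolynomial (Fin 4) ℂ))

/-- The field `K = ℂ(s₀, s₁)`. -/
abbrev K : Type := FractionRing (MvPolynomial (Fin 2) ℂ)

/-- The generic point `(1, s₀, s₁)` of the plane. -/
noncomputable def gen : Fin 3 → K :=
  ![1, algebraMap (MvPolynomial (Fin 2) ℂ) K (X 0), algebraMap (MvPolynomial (Fin 2) ℂ) K (X 1)]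

/-- The value at `v ∈ K⁴` of the quadratic form of the fibration. -/
noncomputable def fibForm (M : Matrix (Fin 4) (Fin 4) (MvPolynomial (Fin 3) ℂ)) (v : Fin 4 → K) :
    K := v ⬝ᵥ ((M.map (aeval gen)) *ᵥ v)

/-- The value at `w ∈ K⁶` of the net of quadratic forms `Q₀ + s₀ Q₁ + s₁ Q₂`. -/
noncomputable def netForm (Q : Fin 3 → Matrix (Fin 6) (Fin 6) ℂ) (w : Fin 6 → K) : K :=
  ∑ k, gen k * (w ⬝ᵥ (((Q k).map (algebraMap ℂ K)) *ᵥ w))

/-- The quadratic form of the fibration, plus a hyperbolic plane, is similar over `K` to a net of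
quadratic forms in six variables. -/
def SimilarToNet (M : Matrix (Fin 4) (Fin 4) (MvPolynomial (Fin 3) ℂ)) : Prop :=
  ∃ (Q : Fin 3 → Matrix (Fin 6) (Fin 6) ℂ) (l : K), l ≠ 0 ∧
    ∃ φ : ((Fin 4 → K) × K × K) ≃ₗ[K] (Fin 6 → K),
      ∀ v a b, netForm Q (φ (v, a, b)) = l * (fibForm M v + a * b)

/-- The even Clifford algebra over `K` of the quadratic form of the fibration is Morita equivalent
to the one of a net of quadratic forms in six variables. -/
def MoritaToNet (M : Matrix (Fin 4) (Fin 4) (MvPolynomial (Fin 3) ℂ)) : Prop :=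
  ∃ (q : QuadraticForm K (Fin 4 → K)) (Q : Fin 3 → Matrix (Fin 6) (Fin 6) ℂ)
    (N : QuadraticForm K (Fin 6 → K)), (∀ v, q v = fibForm M v) ∧ (∀ w, N w = netForm Q w) ∧
      IsMoritaEquivalent K (CliffordAlgebra.even q) (CliffordAlgebra.even N)

/-- The curve `g = 0` splits in the double plane `z² = f`: `f` is a square in its function
field. -/
def Splits (f g : MvPolynomial (Fin 3) ℂ) : Prop :=
  ∃ (k : ℕ) (s c : MvPolynomial (Fin 3) ℂ), c.IsHomogeneous k ∧ ¬ g ∣ c ∧ g ∣ c ^ 2 * f - s ^ 2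

/-- The forms `b` of degree `r + 3` with `b² ∈ (δ g, f)`, where `f = det M` and `δ` is the
determinant of the `3 × 3` block of linear forms: sections, modulo `f`, of a theta characteristic
of the curve `f = 0`. -/
def thetaForms (M : Matrix (Fin 4) (Fin 4) (MvPolynomial (Fin 3) ℂ))
    (g : MvPolynomial (Fin 3) ℂ) (r : ℕ) : Set (MvPolynomial (Fin 3) ℂ) :=
  {b | b.IsHomogeneous (r + 3) ∧ b ^ 2 ∈ Ideal.span {M.adjugate 3 3 * g, M.det}}

/-- The theta characteristic has exactly one section, up to constants. -/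
def OneSection (M : Matrix (Fin 4) (Fin 4) (MvPolynomial (Fin 3) ℂ))
    (g : MvPolynomial (Fin 3) ℂ) (r : ℕ) : Prop :=
  ∃ b₀ ∈ thetaForms M g r, ¬ M.det ∣ b₀ ∧ ∀ b ∈ thetaForms M g r, ∃ c : ℂ, M.det ∣ b - C c * b₀

theorem result (M : Matrix (Fin 4) (Fin 4) (MvPolynomial (Fin 3) ℂ)) (hM : IsFibrationMatrix M)
    (hs : IsSmoothForm (cubicForm M)) :
    (SimilarToNet M ∨ MoritaToNet M → IsRationalForm (cubicForm M)) ∧
    (IsSmoothForm M.det → ∀ (r : ℕ) (g : MvPolynomial (Fin 3) ℂ), g.IsHomogeneous (2 * r) →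
      Irreducible g → ¬ g ∣ M.det → Splits M.det g → ¬ OneSection M g r →
      IsRationalForm (cubicForm M)) := by
  have hs' : SmoothForm (H925.cubicOf M) := by
    intro z hz
    apply hs z
    intro i
    rw [H925.eval_eq_aeval]
    exact hz i
  have h2 : ∀ (Q : Fin 3 → Matrix (Fin 6) (Fin 6) ℂ) (w : Fin 6 → K),
      net Q tvec w = netForm Q w := by
    intro Q w
    simp only [net, netForm, qf, dotProduct, Matrix.mulVec, Matrix.map_apply, Finset.mul_sum]
    refine Finset.sum_congr rfl fun k _ => Finset.sum_congr rfl fun i _ =>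
      Finset.sum_congr rfl fun j _ => ?_
    change tvec k * (algebraMap ℂ K (Q k i j) * (w i * w j)) =
      tvec k * (w i * (algebraMap ℂ K (Q k i j) * w j))
    ring
  refine ⟨?_, ?_⟩
  · rintro (⟨Q, l, hl, φ, hφ⟩ | ⟨q, Q, N, hq, hN, h⟩)
    swap
    · exact H100.rational_of_morita M hM.homogeneous hs' q hq Q N
        (fun w => by rw [hN, h2]) h
    refine H925.NetResult.net_result (H925.cubicOf M) (H925.cubicOf_homogeneous M hM.homogeneous)
      hs' (H925.qM M) (fun w => by
        rw [H925.qM_apply, H925.aeval_wvec_cubicOf M hM.homogeneous]) Q ?_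
    let τ : (Fin 4 → K) ≃ₗ[K] (Fin 4 → K) := LinearEquiv.funCongrLeft K K H925.perm4
    refine ⟨l, hl, (LinearEquiv.prodCongr τ (LinearEquiv.refl K (K × K))).trans φ, ?_⟩
    intro v a b
    have h1 : ((LinearEquiv.prodCongr τ (LinearEquiv.refl K (K × K))).trans φ) (v, a, b) =
        φ (v ∘ H925.perm4, a, b) := rfl
    rw [h1, h2, hφ, H925.qM_apply]
    rfl
  · intro hC r g hgr hg hgf hsq hV
    refine Theta.theta_main hM.symm hM.homogeneous hs' hC hg hgr hgf hsq ?_
    rintro ⟨b₀, hb₀, hbf, hb⟩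
    exact hV ⟨b₀, hb₀, hbf, hb⟩

end Vale.Agent.Results.P287.EvenTheta
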