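import Vale.Agent.P287.H597.OddGenus

/-!
Rationality of smooth cubic fourfolds containing a plane, by means of a plane curve of odd degree
which splits in the double plane branched along the discriminant sextic.
-/

namespace Vale.Agent.Results.P287.OddTheta

open MvPolynomial Matrix Module Vale.Agent.P287

/-- The weights `0, 0, 0, 1` of the four coordinates `y₀, y₁, y₂, 1`. -/
def weight : Fin 4 → ℕ := ![0, 0, 0, 1]

/-- `M` is the matrix of the quadric surface fibration of a cubic fourfold containing the plane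
`x₀ = x₁ = x₂ = 0`: it is symmetric and `M i j` is a form in `x₀, x₁, x₂` of degree
`1 + weight i + weight j`. -/
structure IsFibrationMatrix (M : Matrix (Fin 4) (Fin 4) (MvPolynomial (Fin 3) ℂ)) : Prop where
  symm : M.IsSymm
  homogeneous : ∀ i j, (M i j).IsHomogeneous (1 + weight i + weight j)

/-- The cubic form `∑ M i j (x₀, x₁, x₂) v_i v_j` with `v = (x₃, x₄, x₅, 1)`. -/
noncomputable def cubicForm (M : Matrix (Fin 4) (Fin 4) (MvPolynomial (Fin 3) ℂ)) :
    MvPolynomial (Fin 6) ℂ :=
  ![X 3, X 4, X 5, 1] ⬝ᵥ ((M.map (aeval ![X 0, X 1, X 2])) *ᵥ ![X 3, X 4, X 5, 1])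

/-- The form `F` is smooth: its partial derivatives have no common zero but the origin. -/
def IsSmoothForm {n : ℕ} (F : MvPolynomial (Fin n) ℂ) : Prop :=
  ∀ z : Fin n → ℂ, (∀ i, eval z (pderiv i F) = 0) → z = 0

/-- The hypersurface `F = 0` is rational: its function field, in the chart `x₀ = 1`, is the field
of rational functions in four variables over `ℂ`. -/
def IsRationalForm (F : MvPolynomial (Fin 6) ℂ) : Prop :=
  Nonempty (FractionRing (MvPolynomial (Fin 5) ℂ ⧸
      Ideal.span {aeval (Fin.cons 1 X : Fin 6 → MvPolynomial (Fin 5) ℂ) F}) ≃ₐ[ℂ]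
    FractionRing (MvPolynomial (Fin 4) ℂ))

/-- The curve `g = 0` splits in the double plane `z² = f`: `f` is the square of `s / c` in its
function field, `c` a form; moreover `s / c` is regular at the points of the curve on `f = 0`. -/
structure Splits (f g s c : MvPolynomial (Fin 3) ℂ) : Prop where
  homogeneous : ∃ k, c.IsHomogeneous k
  square : g ∣ c ^ 2 * f - s ^ 2
  regular : ∀ z : Fin 3 → ℂ, z ≠ 0 → ¬ (eval z c = 0 ∧ eval z f = 0 ∧ eval z g = 0)

/-- The forms `b` of degree `k` with `b² ∈ (g, f)`, modulo `f`: for `deg g = 2 k - 3` the sections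
of a theta characteristic of the curve `f = 0`. -/
noncomputable def sections (f g : MvPolynomial (Fin 3) ℂ) (k : ℕ) :
    Submodule ℂ (MvPolynomial (Fin 3) ℂ ⧸ Ideal.span {f}) :=
  Submodule.span ℂ (Ideal.Quotient.mk (Ideal.span {f}) ''
    {b | b.IsHomogeneous k ∧ b ^ 2 ∈ Ideal.span {g, f}})

/-- The part of degree `t + 3` of the ideal of the curve `D : g = 0, z = s / c` in the double
plane: the forms `a + b z`, where `a` and `b` are forms in `x₀, x₁, x₂` of degrees `t + 3`, `t`. -/
noncomputable def idealPart (g s c : MvPolynomial (Fin 3) ℂ) (t : ℕ) :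
    Submodule ℂ (MvPolynomial (Fin 3) ℂ × MvPolynomial (Fin 3) ℂ) :=
  Submodule.span ℂ {v | v.1.IsHomogeneous (t + 3) ∧ v.2.IsHomogeneous t ∧ g ∣ c * v.1 + s * v.2}

/-- The curve `D : g = 0, z = s / c` in the double plane has arithmetic genus `p`: its Hilbert
polynomial is `n t + 1 - p`, where `n` is its degree. -/
def HasGenus (g s c : MvPolynomial (Fin 3) ℂ) (n p : ℕ) : Prop :=
  ∃ t₀, ∀ t ≥ t₀, finrank ℂ (homogeneousSubmodule (Fin 3) ℂ (t + 3)) +
    finrank ℂ (homogeneousSubmodule (Fin 3) ℂ t) + p =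
      finrank ℂ (idealPart g s c t) + n * (t + 3) + 1

theorem result (M : Matrix (Fin 4) (Fin 4) (MvPolynomial (Fin 3) ℂ)) (hM : IsFibrationMatrix M)
    (hs : IsSmoothForm (cubicForm M)) (hC : IsSmoothForm M.det) (m : ℕ) (hm : 2 ≤ m)
    (g s c : MvPolynomial (Fin 3) ℂ) (hg : g.IsHomogeneous (2 * m + 1)) (hgi : Irreducible g)
    (hsq : Splits M.det g s c)
    (hev : Even (finrank ℂ (sections M.det g (m + 2))) ∨
      ∃ p, Odd p ∧ HasGenus g s c (2 * m + 1) p) :
    IsRationalForm (cubicForm M) := by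
  have hs' : SmoothForm (H925.cubicOf M) := by
    intro z hz
    apply hs z
    intro i
    rw [H925.eval_eq_aeval]
    exact hz i
  obtain ⟨⟨k, hc⟩, hd, hz⟩ := hsq
  have hH : ∀ z : Fin 3 → ℂ, z ≠ 0 →
      ¬ (aeval z c = 0 ∧ aeval z M.det = 0 ∧ aeval z g = 0) := by
    intro z hz0 h
    refine hz z hz0 ?_
    rwa [← H925.eval_eq_aeval, ← H925.eval_eq_aeval, ← H925.eval_eq_aeval] at h
  rcases hev with hev | ⟨p, hp, t₀, ht₀⟩
  · refine H925V.odd_theta hM.symm hM.homogeneous hs' hC hm hgi hg ⟨k, s, c, hc, hd, hH⟩ ?_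
    intro H hk
    have h : (H.J (m + 2) hk).map (H684.modf M.det) = sections M.det g (m + 2) := by
      apply le_antisymm
      · rintro _ ⟨b, hb, rfl⟩
        exact Submodule.subset_span ⟨b, hb, rfl⟩
      · rw [sections, Submodule.span_le]
        rintro _ ⟨b, hb, rfl⟩
        exact ⟨b, hb, rfl⟩
    rw [h]
    exact hev
  · refine H597.odd_theta_genus hM.symm hM.homogeneous hs' hC hm hgi hg hc hd hH hp
      ⟨t₀, fun t ht => ?_⟩
    have h : H69.Rel g c s t = idealPart g s c t := by
      apply le_antisymm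
      · intro v hv
        exact Submodule.subset_span hv
      · rw [idealPart, Submodule.span_le]
        intro v hv
        exact hv
    rw [h]
    exact ht₀ t ht

end Vale.Agent.Results.P287.OddTheta
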